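import Vale.Agent.P292.Stmt
import Vale.Agent.P219.Chart1

/-! Interfaces between the parts of the proof. -/

set_option maxSynthPendingDepth 3

open scoped ContDiff Topology
open Set Filter Asymptotics

noncomputable section

namespace Vale.Agent.P292

open Vale.Agent.P219 (E)
open Vale.Agent.P219.R (Bil ip chr Good)

/-! ### quaternionic-Kaehler atlases -/

/-- the curvature of the connection form `a` -/
def curvA {n : ℕ} (a : E n → E n →L[ℝ] Fin 3 → ℝ) (y X Y : E n) : Fin 3 → ℝ :=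
  fderiv ℝ a y X Y - fderiv ℝ a y Y X + crossProduct (a y X) (a y Y)

/-- a finite atlas with metrics, local quaternionic frames and connection forms -/
structure QK (m : ℕ) (M : Type) [TopologicalSpace M] where
  ι : Type
  fin : Finite ι
  e : ι → OpenPartialHomeomorph M (E (4 * m))
  U : ι → Set (E (4 * m))
  sub : ∀ j, U j ⊆ (e j).target
  cover : ∀ x, ∃ j, x ∈ (e j).source ∧ e j x ∈ U j
  G : ι → E (4 * m) → Bil (4 * m)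
  good : ∀ j, Good (G j) (U j)
  smooth : ∀ i j, ContDiffOn ℝ ∞ (e i ∘ (e j).symm)
    ((e j).target ∩ (e j).symm ⁻¹' (e i).source)
  compat : ∀ i j x, x ∈ (e i).source → x ∈ (e j).source → e i x ∈ U i → e j x ∈ U j → ∀ u v,
    ip (G j (e j x)) u v = ip (G i (e i x)) (fderiv ℝ (e i ∘ (e j).symm) (e j x) u)
      (fderiv ℝ (e i ∘ (e j).symm) (e j x) v)
  I : ι → Fin 3 → E (4 * m) → E (4 * m) →L[ℝ] E (4 * m)
  I_smooth : ∀ j k, ContDiffOn ℝ ∞ (I j k) (U j)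
  I_sq : ∀ j k, ∀ y ∈ U j, ∀ v, I j k y (I j k y v) = -v
  I_mul : ∀ j, ∀ y ∈ U j, ∀ v, I j 0 y (I j 1 y v) = I j 2 y v
  I_skew : ∀ j k, ∀ y ∈ U j, ∀ u v, ip (G j y) (I j k y u) v = -ip (G j y) u (I j k y v)
  I_span : ∀ i j x, x ∈ (e i).source → x ∈ (e j).source → e i x ∈ U i → e j x ∈ U j → ∀ k,
    ∃ c : Fin 3 → ℝ, ∀ v, fderiv ℝ (e i ∘ (e j).symm) (e j x) (I j k (e j x) v) =
      ∑ l, c l • I i l (e i x) (fderiv ℝ (e i ∘ (e j).symm) (e j x) v)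
  a : ι → E (4 * m) → E (4 * m) →L[ℝ] Fin 3 → ℝ
  a_smooth : ∀ j, ContDiffOn ℝ ∞ (a j) (U j)
  par : ∀ j k, ∀ y ∈ U j, ∀ X v, fderiv ℝ (I j k) y X v + chr (G j) y X (I j k y v) -
    I j k y (chr (G j) y X v) = ∑ l, crossProduct (a j y X) (Pi.single k 1) l • I j l y v
  curv : ∀ j, ∀ y ∈ U j, ∃ ν : ℝ, 0 < ν ∧ ∀ X Y k,
    curvA (a j) y X Y k = -ν * ip (G j y) (I j k y X) Y

/-- the curvature tensor is parallel in the charts of the atlas -/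
def QK.Sym {m : ℕ} {M : Type} [TopologicalSpace M] (Q : QK m M) : Prop :=
  ∀ j, ∀ y ∈ Q.U j, ∀ a u v w, St.covRiem (fun z u v => ip (Q.G j z) u v) y a u v w = 0

/-! ### cones with a complex symplectic form -/

section Cone

variable {V : Type} [NormedAddCommGroup V] [NormedSpace ℝ V]

/-- the one-form `λ ϑ` -/
def thC (ϑ : V → V →L[ℝ] ℂ) (p v : V × ℂ) : ℂ := p.2 * ϑ p.1 v.1

/-- the exterior derivative of `λ ϑ` -/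
def omC (ϑ : V → V →L[ℝ] ℂ) (p v w : V × ℂ) : ℂ :=
  v.2 * ϑ p.1 w.1 - w.2 * ϑ p.1 v.1 + p.2 * (fderiv ℝ ϑ p.1 v.1 w.1 - fderiv ℝ ϑ p.1 w.1 v.1)

variable (V) in
/-- the complement of the zero section in a negative line bundle, with a complex symplectic form
of degree one; the complex structure `J` is determined by the form -/
structure Cone (C : Type) [TopologicalSpace C] where
  D : ℕ
  three : 3 ≤ D
  dim : Module.finrank ℝ V = 2 * D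
  act : ℂ → C → C
  act_cont : ContinuousOn (fun p : ℂ × C => act p.1 p.2) {p | p.1 ≠ 0}
  ι : Type
  τ : ι → OpenPartialHomeomorph C (V × ℂ)
  base : ι → Set V
  base_open : ∀ j, IsOpen (base j)
  target : ∀ j, (τ j).target = base j ×ˢ {0}ᶜ
  cover : ∀ c, ∃ j, c ∈ (τ j).source
  act_mem : ∀ j, ∀ c ∈ (τ j).source, ∀ l, l ≠ 0 → act l c ∈ (τ j).source
  act_eq : ∀ j, ∀ c ∈ (τ j).source, ∀ l, l ≠ 0 → τ j (act l c) = ((τ j c).1, l * (τ j c).2)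
  smooth : ∀ i j, ContDiffOn ℝ ∞ (τ i ∘ (τ j).symm) ((τ j).target ∩ (τ j).symm ⁻¹' (τ i).source)
  r : C → ℝ
  r_cont : Continuous r
  r_pos : ∀ c, 0 < r c
  r_act : ∀ l c, l ≠ 0 → r (act l c) = ‖l‖ * r c
  r_smooth : ∀ j, ContDiffOn ℝ ∞ (r ∘ (τ j).symm) (τ j).target
  compact : IsCompact {c | r c = 1}
  ϑ : ι → V → V →L[ℝ] ℂ
  ϑ_smooth : ∀ j, ContDiffOn ℝ ∞ (ϑ j) (base j)
  compat : ∀ i j, ∀ p ∈ (τ j).target, (τ j).symm p ∈ (τ i).source → ∀ v,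
    thC (ϑ j) p v = thC (ϑ i) (τ i ((τ j).symm p)) (fderiv ℝ (τ i ∘ (τ j).symm) p v)
  J : ι → V × ℂ → V × ℂ →L[ℝ] V × ℂ
  J_smooth : ∀ j, ContDiffOn ℝ ∞ (J j) (τ j).target
  J_sq : ∀ j, ∀ p ∈ (τ j).target, ∀ v, J j p (J j p v) = -v
  J_om : ∀ j, ∀ p ∈ (τ j).target, ∀ v w, omC (ϑ j) p (J j p v) w = Complex.I * omC (ϑ j) p v w
  nondeg : ∀ j, ∀ p ∈ (τ j).target, ∀ v, (∀ w, omC (ϑ j) p v w = 0) → v = 0
  psh : ∀ j, ∀ p ∈ (τ j).target, ∀ v : V × ℂ, v.1 ≠ 0 →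
    fderiv ℝ (fun q => (fderiv ℝ (fun q => Real.log (r ((τ j).symm q))) q).comp (J j q)) p v
        (J j p v) -
      fderiv ℝ (fun q => (fderiv ℝ (fun q => Real.log (r ((τ j).symm q))) q).comp (J j q)) p
        (J j p v) v < 0

namespace Cone

variable {C : Type} [TopologicalSpace C] (A : Cone V C)

/-- consequences of the axioms for the complex structure -/
structure JFacts : Prop where
  vert : ∀ j, ∀ p ∈ (A.τ j).target, ∀ μ : ℂ, A.J j p (0, μ) = (0, Complex.I * μ)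
  scale : ∀ j, ∀ p ∈ (A.τ j).target, ∀ l : ℂ, l ≠ 0 → ∀ v : V × ℂ,
    A.J j (p.1, l * p.2) (v.1, l * v.2) = ((A.J j p v).1, l * (A.J j p v).2)
  compat : ∀ i j, ∀ p ∈ (A.τ j).target, (A.τ j).symm p ∈ (A.τ i).source → ∀ v,
    fderiv ℝ (A.τ i ∘ (A.τ j).symm) p (A.J j p v) =
      A.J i (A.τ i ((A.τ j).symm p)) (fderiv ℝ (A.τ i ∘ (A.τ j).symm) p v)
  om_compat : ∀ i j, ∀ p ∈ (A.τ j).target, (A.τ j).symm p ∈ (A.τ i).source → ∀ v w,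
    omC (A.ϑ j) p v w = omC (A.ϑ i) (A.τ i ((A.τ j).symm p))
      (fderiv ℝ (A.τ i ∘ (A.τ j).symm) p v) (fderiv ℝ (A.τ i ∘ (A.τ j).symm) p w)
  th_J : ∀ j, ∀ p ∈ (A.τ j).target, ∀ v, thC (A.ϑ j) p (A.J j p v) = Complex.I * thC (A.ϑ j) p v
  nij : ∀ j, ∀ p ∈ (A.τ j).target, ∀ v w,
    fderiv ℝ (A.J j) p (A.J j p v) w - fderiv ℝ (A.J j) p (A.J j p w) v +
      A.J j p (fderiv ℝ (A.J j) p w v) - A.J j p (fderiv ℝ (A.J j) p v w) = 0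

/-- smooth functions -/
def Sm (u : C → ℂ) : Prop := ∀ j, ContDiffOn ℝ ∞ (u ∘ (A.τ j).symm) (A.τ j).target

/-- homogeneous functions -/
def Hom (k : ℕ) (u : C → ℂ) : Prop := ∀ l c, l ≠ 0 → u (A.act l c) = l ^ k * u c

/-- the antiholomorphic part of the differential -/
def dbar (j : A.ι) (u : C → ℂ) (p : V × ℂ) : V × ℂ →L[ℝ] ℂ :=
  fderiv ℝ (u ∘ (A.τ j).symm) p + Complex.I • (fderiv ℝ (u ∘ (A.τ j).symm) p).comp (A.J j p)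

/-- holomorphic functions -/
def Hol (u : C → ℂ) : Prop := ∀ j, ∀ p ∈ (A.τ j).target, A.dbar j u p = 0

/-- approximately holomorphic functions of high degree are close to holomorphic ones -/
def Approx : Prop :=
  ∀ (j : A.ι) (K : Set V), IsCompact K → K ⊆ A.base j → ∃ (N M k₀ : ℕ) (B : ℝ), ∀ k, k₀ ≤ k →
    ∀ (u : C → ℂ) (η : ℝ), 0 ≤ η → A.Sm u → A.Hom k u →
      (∀ c, u c ≠ 0 → c ∈ (A.τ j).source ∧ (A.τ j c).1 ∈ K) →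
      (∀ i ≤ N, ∀ x ∈ K, ‖iteratedFDeriv ℝ i (A.dbar j u) (x, 1)‖ ≤
        η * A.r ((A.τ j).symm (x, 1)) ^ k) →
      ∃ s, A.Sm s ∧ A.Hom k s ∧ A.Hol s ∧ (∀ c, ‖s c - u c‖ ≤ B * k ^ M * η * A.r c ^ k) ∧
        ∀ x ∈ K, ‖fderiv ℝ ((s - u) ∘ (A.τ j).symm) (x, 1)‖ ≤
          B * k ^ M * η * A.r ((A.τ j).symm (x, 1)) ^ k

/-- an equivariant holomorphic embedding in a weighted vector space -/
structure Emb (κ : Type) where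
  w : κ → ℕ
  w_pos : ∀ i, 0 < w i
  Φ : C → κ → ℂ
  sm : ∀ i, A.Sm fun c => Φ c i
  hom : ∀ i, A.Hom (w i) fun c => Φ c i
  hol : ∀ i, A.Hol fun c => Φ c i
  inj : Function.Injective Φ
  ne : ∀ c, Φ c ≠ 0
  imm : ∀ j, ∀ p ∈ (A.τ j).target, Function.Injective (fderiv ℝ (Φ ∘ (A.τ j).symm) p)

end Cone

end Cone

/-! ### symplectic cones in weighted vector spaces -/

section Weighted

variable {κ : Type} [Fintype κ]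

/-- the weighted action -/
def act (w : κ → ℕ) (l : ℂ) : (κ → ℂ) →L[ℂ] κ → ℂ :=
  ContinuousLinearMap.pi fun i => l ^ w i • ContinuousLinearMap.proj i

/-- the Euler field -/
def eul (w : κ → ℕ) : (κ → ℂ) →L[ℂ] κ → ℂ :=
  ContinuousLinearMap.pi fun i => (w i : ℂ) • ContinuousLinearMap.proj i

variable (κ) in
/-- a closed conical complex submanifold with a symplectic form of degree one -/
structure Pre where
  w : κ → ℕ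
  w_pos : ∀ i, 0 < w i
  C : Set (κ → ℂ)
  ρ : ℕ
  four : 4 ≤ ρ
  T : (κ → ℂ) → Submodule ℂ (κ → ℂ)
  θ : (κ → ℂ) → (κ → ℂ) →L[ℂ] ℂ
  om : (κ → ℂ) → (κ → ℂ) →L[ℂ] (κ → ℂ) →L[ℂ] ℂ
  zero_not : 0 ∉ C
  closed : IsClosed (insert 0 C)
  act_mem : ∀ p ∈ C, ∀ l, l ≠ 0 → act w l p ∈ C
  free : ∀ p ∈ C, ∀ l, l ≠ 0 → act w l p = p → l = 1
  T_act : ∀ p ∈ C, ∀ l, l ≠ 0 → ∀ v ∈ T p, act w l v ∈ T (act w l p)
  θ_act : ∀ p ∈ C, ∀ l, l ≠ 0 → ∀ v ∈ T p, θ (act w l p) (act w l v) = l * θ p v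
  om_act : ∀ p ∈ C, ∀ l, l ≠ 0 → ∀ v ∈ T p, ∀ u ∈ T p,
    om (act w l p) (act w l v) (act w l u) = l * om p v u
  eul_mem : ∀ p ∈ C, eul w p ∈ T p
  om_eul : ∀ p ∈ C, ∀ v ∈ T p, om p (eul w p) v = θ p v
  nondeg : ∀ p ∈ C, ∀ v ∈ T p, (∀ u ∈ T p, om p v u = 0) → v = 0
  loc : ∀ p ∈ C, ∃ (π : (κ → ℂ) →L[ℂ] Fin ρ → ℂ) (χ : (Fin ρ → ℂ) → κ → ℂ)
    (ϑ : (κ → ℂ) → (κ → ℂ) →L[ℂ] ℂ), AnalyticAt ℂ χ (π p) ∧ AnalyticAt ℂ ϑ p ∧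
    (∀ᶠ u in 𝓝 (π p), χ u ∈ C ∧ π (χ u) = u ∧ T (χ u) = (fderiv ℂ χ u).range) ∧
    ∀ᶠ q in 𝓝 p, q ∈ C → χ (π q) = q ∧ ∀ v ∈ T q, θ q v = ϑ q v ∧
      ∀ u ∈ T q, om q v u = fderiv ℂ ϑ q v u - fderiv ℂ ϑ q u v

namespace Pre

variable (P : Pre κ)

/-- polynomial equations -/
structure Eqs (α : Type) where
  G : α → MvPolynomial κ ℂ
  deg : α → ℕ
  hom : ∀ a, MvPolynomial.IsWeightedHomogeneous P.w (G a) (deg a)
  zero : ∀ p, (∀ a, MvPolynomial.eval p (G a) = 0) ↔ p ∈ insert 0 P.C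
  tan : ∀ p ∈ P.C, ∀ v, v ∈ P.T p ↔
    ∀ a, fderiv ℂ (fun q => MvPolynomial.eval q (G a)) p v = 0

/-- a rational curve of degree `d`, lifted to the cone -/
structure Curve (d : ℕ) (f : ℂ × ℂ → κ → ℂ) : Prop where
  diff : DifferentiableOn ℂ f {0}ᶜ
  hom : ∀ l : ℂ, l ≠ 0 → ∀ v, v ≠ 0 → f (l • v) = act P.w (l ^ d) (f v)
  mem : ∀ v, v ≠ 0 → f v ∈ P.C

/-- an invariant holomorphic vector field along a curve -/
structure Jac (d : ℕ) (f ξ : ℂ × ℂ → κ → ℂ) : Prop where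
  diff : DifferentiableOn ℂ ξ {0}ᶜ
  hom : ∀ l : ℂ, l ≠ 0 → ∀ v, v ≠ 0 → ξ (l • v) = act P.w (l ^ d) (ξ v)
  mem : ∀ v, v ≠ 0 → ξ v ∈ P.T (f v)

/-- values at two points can be prescribed -/
def VeryFree (f : ℂ × ℂ → κ → ℂ) : Prop :=
  ∀ a ∈ P.T (f (1, 0)), ∀ b ∈ P.T (f (0, 1)), ∃ ξ, P.Jac 2 f ξ ∧ ξ (1, 0) = a ∧ ξ (0, 1) = b

/-- the conclusion of the core theorem at the point `y` -/
def GoodPt (y : κ → ℂ) : Prop :=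
  ∀ f, P.Curve 2 f → f (1, 0) = y → P.θ y (fderiv ℂ f (1, 0) (0, 1)) ≠ 0 → P.VeryFree f →
    ∃ (K : (κ → ℂ) → ℂ) (δ : ℝ), AnalyticAt ℂ K y ∧ 0 < δ ∧
      (∀ g, P.Curve 2 g → (∀ v, ‖v‖ = 1 → ‖g v - f v‖ < δ) → ∃ a b c : ℂ, ∀ v : ℂ × ℂ,
        ‖v - (1, 0)‖ < δ → K (g v) = a * v.1 ^ 2 + b * v.1 * v.2 + c * v.2 ^ 2) ∧
      ∀ (γ : ℝ → κ → ℂ) (τ : κ → ℂ), γ 0 = y → (∀ᶠ t in 𝓝 (0 : ℝ), γ t ∈ P.C) →
        HasDerivAt γ τ 0 →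
        (fun t : ℝ => K (γ t) - (t : ℂ) ^ 2 * P.θ y τ ^ 2) =o[𝓝 0] fun t : ℝ => t ^ 2

/-- the good points are dense -/
def Core : Prop := ∀ p ∈ P.C, ∀ N ∈ 𝓝 p, ∃ y ∈ N ∩ P.C, P.GoodPt y

end Pre

/-- the cone `P` is the image of the embedding `ε` -/
structure Lnk {V : Type} [NormedAddCommGroup V] [NormedSpace ℝ V] {C : Type} [TopologicalSpace C]
    {A : Cone V C} (ε : A.Emb κ) (P : Pre κ) : Prop where
  w : P.w = ε.w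
  C : P.C = range ε.Φ
  ind : Topology.IsInducing ε.Φ
  T : ∀ j, ∀ p ∈ (A.τ j).target, ∀ u, u ∈ P.T (ε.Φ ((A.τ j).symm p)) ↔
    ∃ v, fderiv ℝ (ε.Φ ∘ (A.τ j).symm) p v = u
  θ : ∀ j, ∀ p ∈ (A.τ j).target, ∀ v, P.θ (ε.Φ ((A.τ j).symm p))
    (fderiv ℝ (ε.Φ ∘ (A.τ j).symm) p v) = thC (A.ϑ j) p v

/-! ### the twistor cone -/

/-- the null vector of a spinor -/
def zv (h : ℂ × ℂ) : Fin 3 → ℂ :=
  ![h.1 ^ 2 - h.2 ^ 2, Complex.I * (h.1 ^ 2 + h.2 ^ 2), -2 * h.1 * h.2]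

/-- the action of `so(3)` on spinors; `D zv h (sp a h) = a × zv h` -/
def sp (a : Fin 3 → ℝ) (h : ℂ × ℂ) : ℂ × ℂ :=
  (-(Complex.I / 2) * (a 2 * h.1 + (a 0 - Complex.I * a 1) * h.2),
    -(Complex.I / 2) * ((a 0 + Complex.I * a 1) * h.1 - a 2 * h.2))

/-- the symplectic form of the spinors -/
def wg (h e : ℂ × ℂ) : ℂ := h.1 * e.2 - h.2 * e.1

/-- local parametrizations of `P` by the twistor cone of `Q` -/
structure Tw {m : ℕ} {M : Type} [TopologicalSpace M] (Q : QK m M) (P : Pre κ) where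
  Θ : Q.ι → E (4 * m) × ℂ × ℂ → κ → ℂ
  smooth : ∀ j, ContDiffOn ℝ ∞ (Θ j) (Q.U j ×ˢ {0}ᶜ)
  mem : ∀ j, ∀ p ∈ Q.U j ×ˢ ({0}ᶜ : Set (ℂ × ℂ)), Θ j p ∈ P.C
  hom : ∀ j, ∀ x ∈ Q.U j, ∀ h : ℂ × ℂ, h ≠ 0 → ∀ l : ℂ, l ≠ 0 →
    Θ j (x, l • h) = act P.w (l ^ 2) (Θ j (x, h))
  tan : ∀ j, ∀ p ∈ Q.U j ×ˢ ({0}ᶜ : Set (ℂ × ℂ)), ∀ u, u ∈ P.T (Θ j p) ↔
    ∃ v, fderiv ℝ (Θ j) p v = u
  vert : ∀ j, ∀ p ∈ Q.U j ×ˢ ({0}ᶜ : Set (ℂ × ℂ)), ∀ e : ℂ × ℂ,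
    fderiv ℝ (Θ j) p (0, Complex.I • e) = Complex.I • fderiv ℝ (Θ j) p (0, e)
  hor : ∀ j, ∀ x ∈ Q.U j, ∀ h : ℂ × ℂ, h ≠ 0 → ∀ Y, ∑ k, zv h k • fderiv ℝ (Θ j) (x, h)
    (Q.I j k x Y, -sp (Q.a j x (Q.I j k x Y)) h) = 0
  θ : ∀ j, ∀ x ∈ Q.U j, ∀ h : ℂ × ℂ, h ≠ 0 → ∀ X e, P.θ (Θ j (x, h))
    (fderiv ℝ (Θ j) (x, h) (X, e)) = wg h (e + sp (Q.a j x X) h)
  nhds : ∀ j, ∀ p ∈ Q.U j ×ˢ ({0}ᶜ : Set (ℂ × ℂ)), ∀ N ∈ 𝓝 p, Θ j '' N ∈ 𝓝[P.C] Θ j p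

end Weighted

/-! ### countable unions of holomorphic images -/

section HolIm

variable {F : Type} [NormedAddCommGroup F] [NormedSpace ℂ F]

/-- a countable union of holomorphic images of open sets -/
def HolIm (S : Set F) : Prop :=
  ∃ (d : ℕ → ℕ) (O : ∀ n, Set (Fin (d n) → ℂ)) (φ : ∀ n, (Fin (d n) → ℂ) → F),
    (∀ n, IsOpen (O n) ∧ AnalyticOnNhd ℂ (φ n) (O n)) ∧ S = ⋃ n, φ n '' O n

/-- covered by countably many holomorphic maps of rank at most `r` -/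
def Small (r : ℕ) (S : Set F) : Prop :=
  ∃ (d : ℕ → ℕ) (O : ∀ n, Set (Fin (d n) → ℂ)) (φ : ∀ n, (Fin (d n) → ℂ) → F),
    (∀ n, IsOpen (O n) ∧ AnalyticOnNhd ℂ (φ n) (O n) ∧
      ∀ x ∈ O n, Module.finrank ℂ (fderiv ℂ (φ n) x).range ≤ r) ∧ S ⊆ ⋃ n, φ n '' O n

/-- near each of its points the set is the common zero set of holomorphic functions -/
def LocAn (Z : Set F) : Prop :=
  ∀ x ∈ Z, ∃ (N : Set F) (𝓕 : Set (F → ℂ)), IsOpen N ∧ x ∈ N ∧ (∀ f ∈ 𝓕, AnalyticOnNhd ℂ f N) ∧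
    Z ∩ N = {y ∈ N | ∀ f ∈ 𝓕, f y = 0}

end HolIm

end Vale.Agent.P292
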